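import Vale.Agent.P283R.Hb.St
import Vale.Agent.P283R.Hz.Dsc
import Vale.Agent.P283R.Hz.Trv
import Vale.Agent.P283R.Hw.Hj

/-!
# P283R, block HB: the log discrepancy of the places of the Rees ring
-/

open Set

noncomputable section

namespace Vale.Agent.P283R.Hb

open Vale.Agent.P287D Vale.Agent.P297Z Vale.Agent.P283M Vale.Agent.P283R.Cx Vale.Agent.P283R.Cy
open Vale.Agent.P283R.Hz

theorem Dg.bas {N n : ℕ} {L : Type} [Field L] [Algebra ℂ L] (x : Fin N → L) (hL : FF L n)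
    (ha : Algebra.IsAlgebraic (IntermediateField.adjoin ℂ (range x)) L) :
    ∃ J : Fin n → Fin N, Function.Injective J ∧ AlgebraicIndependent ℂ fun i => x (J i) := by
  have := IntermediateField.isAlgebraic_adjoin_iff_top.1 ha
  obtain ⟨s, hs, hb⟩ := exists_isTranscendenceBasis_subset (R := ℂ) (range x)
  have e : Cardinal.mk (Fin n) = Cardinal.mk s := by
    rw [hb.cardinalMk_eq_trdeg, hL.trdeg, Cardinal.mk_fin]
  obtain ⟨g⟩ := Cardinal.eq.1 e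
  choose j hj using fun i => hs (g i).2
  refine ⟨j, fun a b h => g.injective (Subtype.ext (by rw [← hj, ← hj, h])), ?_⟩
  rw [funext hj]
  exact hb.1.comp g g.injective

theorem dsg_of (rho : RHO) (kpw : KPW) (off : OFF) : DSG := by
  intro K F _ _ _ _ _ _ d k N q ε y t T D s a u l h₀ g e₀ b Q dz E _ _ _ _ τ ex v W hv wp
  have t0 := dz.ext.ind.ne_zero
  have τ0 := Dsc.tau_ne wp
  have z0 : ∀ j, zz t s a j ≠ 0 := fun j => hm_ne t0 (dz.cox.ne j) _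
  obtain ⟨J, iJ, he⟩ := Dg.bas (fun j => W.rd (xs (zz t s a) τ v j)) (Gm.ff_κ W ex.ff') wp.alg
  obtain ⟨ind, kp⟩ := kpw (d + k) F E τ ex (fun i => zz t s a (J i)) (fun i => v (J i)) W wp.pos
    (fun i => wp.mem _) he
  obtain ⟨φ, φ0, hφ, hr⟩ := rho K F d k N q ε y t T D s a u l h₀ g e₀ b Q dz J ind
  obtain ⟨j, hj⟩ := off K F d k N q ε y t T D s a u l h₀ g e₀ b Q dz
  obtain ⟨R, lR⟩ := Dsc.lies ex.ff ex.ff' wp ((hv j).2 hj) (z0 j)
  obtain ⟨β, hβ, le⟩ := Hw.exists_mon hφ φ0 R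
  refine ⟨R, J, β, lR, iJ, hβ, ?_⟩
  have p0 : ∏ j, s j ^ β j ≠ 0 :=
    Finset.prod_ne_zero_iff.2 fun j _ => pow_ne_zero _ (dz.cox.ne j)
  have x0 : ∏ j, xs (zz t s a) τ v j ^ β j ≠ 0 := Finset.prod_ne_zero_iff.2 fun j _ =>
    pow_ne_zero _ (div_ne_zero ((map_ne_zero _).2 (z0 j)) (pow_ne_zero _ τ0))
  have e0 : 0 < W.ord (algebraMap F E R.t) := (lR.ord_pos_iff _).2 (by rw [R.ord_t]; exact one_pos)
  have k2 : R.ord (hm t (∏ j, s j ^ β j) (dg a β)) ≤ R.ord (hm t φ (dg a β)) := by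
    rw [ord_hm t0 R p0, ord_hm t0 R φ0]
    exact add_le_add_left le _
  have k3 : (∑ j, v j * β j : ℕ) * W.ord τ ≤
      W.ord (algebraMap F E R.t) * R.ord (hm t φ (dg a β)) := by
    refine le_trans ?_ (mul_le_mul_of_nonneg_left k2 e0.le)
    rw [← lR.ord, Tv.mon_eq (v := v) t0 τ0, Pl.ord_mul _ x0 (pow_ne_zero _ τ0), Pl.ord_pow]
    exact le_add_of_nonneg_left ((Pl.ord_nonneg_iff _ x0).2
      (prod_mem fun j _ => pow_mem (wp.mem j) _))
  have k4 : (∑ j, (v j : ℝ) * β j) * W.ord τ ≤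
      W.ord (algebraMap F E R.t) * (R.ord (hm t φ (dg a β)) : ℝ) := by exact_mod_cast k3
  have k1 := mul_le_mul_of_nonneg_left (kp R lR) (Nat.cast_nonneg (α := ℝ) q)
  rw [hr R, ← hβ]
  linarith

end Vale.Agent.P283R.Hb
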