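import Vale.Agent.P283R.Hb.St
import Vale.Agent.P283R.Hz.Gl

/-!
# P283R, block HB: the assembly
-/

open Finset

noncomputable section

namespace Vale.Agent.P283R.Hb

open Vale.Agent.P287D Vale.Agent.P283M Vale.Agent.P283R.Cx Vale.Agent.P283R.Cy Vale.Agent.P283R.Hz

theorem od_le {N : ℕ} (u : Fin N → ℕ) : od u 1 ≤ N := by
  have : od u 1 ≤ ∑ _j : Fin N, 1 := sum_le_sum fun j _ => by
    split_ifs <;> simp
  simpa using this

theorem hg_of (cmb : CMB) (kab : KAB) (hmg : HMG) : Bh.HG := by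
  intro d k N q ε hq hε
  set C : ℕ := q * (d + k + 1) with hC
  have q0 : (0 : ℝ) < q := Nat.cast_pos.2 hq
  have n0 : (0 : ℝ) < q + C := by positivity
  obtain ⟨M, M0, H⟩ := cmb N C (min (min ε (1 / (4 * (N + 1)))) (1 / (q + C)))
    (lt_min (lt_min hε (by positivity)) (by positivity))
  refine ⟨M, M0, fun K _ _ y T D s a c f h₀ g e₀ b can X Q hQ => ?_⟩
  obtain ⟨F, _, _, _, _, t, x⟩ := Cx.ext K d k X.ff
  obtain ⟨u, l, gt⟩ := exists_gt a
  have Z : Dz q ε y t T D s a u l h₀ g e₀ b Q :=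
    ⟨hq, hε, x, X.fr, X.cox, can, X.g0, X.gs, X.hw, X.lw, gt, hQ⟩
  obtain ⟨κ, k1, k2⟩ := kab K F d k N q ε y t T D s a u l h₀ g e₀ b Q Z
  obtain ⟨r, m, r0, m1, m2⟩ := hw_mon hε hq Z.hw Z.lw Q
  obtain ⟨m', e1, e2⟩ := H N k a u l (fun j => Q.ord (s j)) _ κ _ r m Z.gt (od_le u) k1 k2
    (fun m hm => by
      rw [← ord_pw Z.cox.ne]
      exact Z.hq _ (hm ▸ mon_mem s a m) (prod_ne_zero_iff.2 fun j _ => pow_ne_zero _ (Z.cox.ne j)))
    (fun ξ h => (Z.lw ξ h).1) r0 m1 m2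
    (hmg K F d k N q ε y t T D s a u l h₀ g e₀ b Q Z _ C κ
      ⟨k1, k2, (min_le_left _ _).trans (min_le_left _ _),
        (min_le_left _ _).trans (min_le_right _ _),
        (mul_le_mul_of_nonneg_right (min_le_right _ _) n0.le).trans_eq (by field_simp)⟩)
  refine ⟨m', e1, ?_⟩
  rw [Hl.ld_iff hq M0 X.h0 (prod_ne_zero_iff.2 fun j _ => pow_ne_zero _ (X.cox.ne j)),
    ord_pw Z.cox.ne]
  rwa [sub_zero] at e2

/-- the complete intersections are a special case -/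
theorem hzd_of (h : Bh.HG) : HZD := fun c d k q ε hq hε =>
  (h d k (d + k + c) q ε hq hε).imp fun _ H => ⟨H.1, fun K _ _ y T D s a f h₀ g e₀ b E X Q hQ =>
    H.2 K y T D s a c f h₀ g e₀ b E X Q hQ⟩

end Vale.Agent.P283R.Hb
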