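import Vale.Agent.P283R.Hb.St
import Vale.Agent.P283R.Cx.Ext
import Vale.Agent.P283R.Cx.Bas

/-!
# P283R, block HB: the geometry in terms of weights
-/

open Set

noncomputable section

namespace Vale.Agent.P283R.Hb

open Vale.Agent.P287D Vale.Agent.P297Z Vale.Agent.P283M Vale.Agent.P283R.Cx Vale.Agent.P283R.Cy
open Vale.Agent.P283R.Hz
open Vale.Agent.P283R.To (ord_prod)

/-- **HMG** -/
theorem hmg_of (trg : TRG) (itg : ITG) (cmp : CMP) : HMG := by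
  intro K F _ _ _ _ _ _ d k N q ε y t T D s a u l h₀ g e₀ b Q A η C κ kp D₀ v sv m N₀ H
  obtain ⟨E, _, _, _, _, τ, x⟩ := ext F (d + k) 1 A.ext.ff'
  rw [show τ = fun _ => τ 0 from funext fun i => congrArg τ (Subsingleton.elim _ _)] at x
  have t0 := A.ext.ind.ne_zero
  have τ0 : τ 0 ≠ 0 := x.ind.ne_zero 0
  have s0 := A.cox.ne
  have p0 : ∀ m : Fin N → ℕ, ∏ j, s j ^ m j ≠ 0 := fun m =>
    Finset.prod_ne_zero_iff.2 fun j _ => pow_ne_zero _ (s0 j)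
  have op : ∀ m : Fin N → ℕ, Q.ord (∏ j, s j ^ m j) = ∑ j, m j * Q.ord (s j) := fun m => by
    simp only [ord_prod Q fun j => pow_ne_zero _ (s0 j), Pl.ord_pow]
  have v0 : ∀ j, 0 < u j → v j = 0 := fun j h =>
    Nat.eq_zero_of_not_pos (mt (sv.pos j).1 h.ne')
  refine (cmp K F d k N q ε y t T D s a u l h₀ g e₀ b Q A E (τ 0) x v _
    (dg a m) N₀ (p0 m) v0 (itg K F d k N q ε y t T D s a u l h₀ g e₀ b Q A E (τ 0) x v _ N₀
      (mem_Rg t0 (mon_mem s a m)) v0 fun W w => ?_)).imp fun r h => h.imp fun m' h =>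
        ⟨h.1, h.2.1, h.2.2.1, by simpa only [op] using h.2.2.2⟩
  obtain ⟨ξ, k1, k2⟩ := trg K F d k N q ε y t T D s a u l h₀ g e₀ b Q A E (τ 0) x η C D₀ κ v W kp
    sv w
  have w0 : (0 : ℝ) < W.ord (τ 0) := by exact_mod_cast w.pos
  have od : ∀ (φ : K) e (n : ℤ), φ ≠ 0 →
      (algebraMap F E (hm t φ e) / τ 0 ^ n ∈ W.ring ↔ (n : ℝ) ≤ pa e ξ) := fun φ e n φ0 => by
    have n0 := (map_ne_zero (algebraMap F E)).2 (hm_ne t0 φ0 e)
    rw [← Pl.ord_nonneg_iff _ (div_ne_zero n0 (zpow_ne_zero _ τ0)),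
      Pl.ord_div _ n0 (zpow_ne_zero _ τ0), Pl.ord_zpow, ← Int.cast_nonneg_iff (R := ℝ)]
    push_cast
    rw [k1 φ e φ0, mul_comm (n : ℝ), ← mul_sub, mul_nonneg_iff_of_pos_left w0, sub_nonneg]
  have lv : ∀ j, (v j : ℝ) ≤ pa (a j) ξ := fun j => by
    simpa using (od (s j) (a j) (v j) (s0 j)).1 (by rw [zpow_natCast]; exact w.mem j)
  exact (od _ _ _ (p0 m)).2 (H ξ lv k2)

end Vale.Agent.P283R.Hb
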