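import Vale.Agent.P283R.Hb.St
import Vale.Agent.P283R.Hz.Bnd

/-!
# P283R, block HB, row KAB: a bounded representative of the class of `-q (K + B)`
-/

open Set
open Vale.Agent.P297Z

noncomputable section

namespace Vale.Agent.P283R.Hb

open Vale.Agent.P287D Vale.Agent.P283M Vale.Agent.P283R.Cx Vale.Agent.P283R.Cy Vale.Agent.P283R.Hz

open Bn in
/-- **KAB** -/
theorem kab_of (dsg : DSG) (itg : ITG) (cmp : CMP) (klf : KLF) : KAB := by
  intro K F _ _ _ _ _ _ d k N q ε y t T D s a u l h₀ g e₀ b Q X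
  classical
  obtain ⟨E, _, _, _, _, τ', x⟩ := Cx.ext F (d + k) 1 X.ext.ff'
  obtain ⟨τ, rfl⟩ : ∃ τ, τ' = fun _ => τ := ⟨τ' 0, funext fun i => congrArg τ' (Fin.eq_zero i)⟩
  have τ0 : τ ≠ 0 := x.ind.ne_zero 0
  let v : Fin N → ℕ := fun j => if u j = 0 then 1 else 0
  have v0 : ∀ j, 0 < u j → v j = 0 := fun j h => if_neg h.ne'
  obtain ⟨W, w⟩ : ∃ W, Wp u (zz t s a) τ v W := by
    by_contra n
    obtain ⟨r, m, r0, m0, h, -⟩ := cmp K F d k N q ε y t T D s a u l h₀ g e₀ b Q X E τ x v 1 0 1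
      one_ne_zero v0 (itg K F d k N q ε y t T D s a u l h₀ g e₀ b Q X E τ x v _ 1
        (hm_one (K := K) t ▸ one_mem _) v0 fun W h => (n ⟨W, h⟩).elim)
    rw [Finset.sum_eq_zero fun j _ => ?_] at h
    · omega
    · by_cases c : u j = 0
      · rw [inv_zero X.gt (m0.trans (smul_zero _)) c, Nat.cast_zero, mul_zero]
      · rw [v0 j (Nat.pos_of_ne_zero c), Nat.cast_zero, zero_mul]
  obtain ⟨R, J, β, p, -, hβ, le⟩ := dsg K F d k N q ε y t T D s a u l h₀ g e₀ b Q X E τ x v W
    (fun j => by by_cases c : u j = 0 <;> simp [v, c]) w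
  have hτ : τ ∈ W.ring := Cb.mem_ord w.pos.le
  have b1 := (klf K F d k N q ε y t T D s a u l h₀ g e₀ b Q X R (Tz.rg_le fun j =>
    Pl.ord_nonneg_of_mem _ ((p _).2 (by
      rw [← div_mul_cancel₀ (algebraMap F E _) (pow_ne_zero (v j) τ0)]
      exact mul_mem (w.mem j) (pow_mem hτ _))))).1
  have b2 := nonneg_of_mul_nonneg_right
    ((mul_nonneg (Int.cast_nonneg (R := ℝ) p.e_pos.le) b1).trans le) (by exact_mod_cast w.pos)
  have b3 : ∑ j, v j * β j ≤ q * ∑ i, v (J i) := by exact_mod_cast sub_nonneg.1 b2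
  have b4 : ∑ i, v (J i) ≤ d + k := by
    simpa using Finset.sum_le_card_nsmul Finset.univ (fun i => v (J i)) 1 fun i _ => by
      by_cases c : u (J i) = 0 <;> simp [v, c]
  let n : Fin N → ℕ := fun j => ∑ i, if J i = j then 1 else 0
  have n1 : ∀ j, n j ≤ d + k := fun j => by
    have := Finset.sum_le_card_nsmul Finset.univ (fun i => if J i = j then 1 else 0) 1
      fun i _ => by split_ifs <;> simp
    rwa [Finset.card_univ, Fintype.card_fin, smul_eq_mul, mul_one] at this
  refine ⟨fun j => (q * n j : ℕ) - β j, fun j hj => ?_, ?_⟩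
  · have c1 : v j * β j ≤ q * (d + k) := (Finset.single_le_sum (f := fun j => v j * β j)
      (fun _ _ => Nat.zero_le _) (Finset.mem_univ j)).trans (b3.trans (Nat.mul_le_mul_left _ b4))
    have c2 := Nat.mul_le_mul_left q (n1 j)
    rw [show v j = 1 from if_pos hj, one_mul] at c1
    beta_reduce
    rw [mul_add q _ 1, abs_le]
    omega
  · funext i
    have := congrFun hβ i
    simp only [dg, Pi.add_apply, Pi.smul_apply, smul_eq_mul, Finset.sum_apply] at this
    have e : ∑ j, (n j : ℤ) * a j i = ∑ l, a (J l) i := by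
      simp only [n, Nat.cast_sum, Finset.sum_mul]
      rw [Finset.sum_comm]
      simp
    simp only [Finset.sum_apply, Pi.smul_apply, smul_eq_mul, Pi.neg_apply, Pi.add_apply,
      Nat.cast_mul, mul_assoc, sub_mul, Finset.sum_sub_distrib, ← Finset.mul_sum, e, this]
    ring

end Vale.Agent.P283R.Hb
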