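import Vale.Agent.P283R.Hb.St
import Vale.Agent.P283R.Cy.Mkf
import Vale.Agent.P283R.Cx.All

/-!
# P283R, block HB: the ring of the sections is klt
-/

open Set
open Vale.Agent.P297Z

noncomputable section

namespace Vale.Agent.P283R.Hb

open Vale.Agent.P287D Vale.Agent.P283M Vale.Agent.P283R.Cx Vale.Agent.P283R.Cy Vale.Agent.P283R.Hz

variable {K F : Type} [Field K] [Algebra ℂ K] [Field F] [Algebra ℂ F] [Algebra K F]
  {d k N q : ℕ} {ε : ℝ} {y : Fin d → K} {t : Fin k → F} {T : Set (Pl K)}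
  {D : Pl K → Fin k → ℤ} {s : Fin N → K} {a : Fin N → Fin k → ℤ} {u : Fin N → ℕ} {l : Fin k → ℤ}
  {h₀ g : K} {e₀ b : Fin k → ℤ} {Q : Pl K}

/-- the data in the words of block CY -/
theorem Kl.dx (X : Dz q ε y t T D s a u l h₀ g e₀ b Q) : ∃ (c : ℕ)
    (f : Fin c → MvPolynomial (Fin N) ℂ), Dx q ε y T D s a f (h₀ ^ q * g) g ((q : ℤ) • e₀ + b) b := by
  obtain ⟨c, f, hf⟩ := Submodule.fg_iff_exists_fin_generating_family.1
    (IsNoetherian.noetherian (RingHom.ker (MvPolynomial.aeval fun j =>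
      AddMonoidAlgebra.single (a j) (s j) :
        MvPolynomial (Fin N) ℂ →ₐ[ℂ] AddMonoidAlgebra K (Fin k → ℤ))))
  have h0 := pow_ne_zero q X.can.1
  refine ⟨c, f, X.ext.ff, X.fr, X.cox, hf.symm, mul_ne_zero h0 X.g0, X.g0, X.gs, fun E hE => ?_,
    X.hw, X.lw⟩
  rw [X.can.2 E hE, Pl.ord_mul _ h0 X.g0, Pl.ord_pow, add_dotProduct, smul_dotProduct, smul_eq_mul]
  push_cast
  ring

omit [Algebra ℂ K] in
theorem Kl.ord (t0 : ∀ i, t i ≠ 0) (h0 : h₀ ≠ 0) (g0 : g ≠ 0) (R : Pl F) :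
    (R.ord (hm t (h₀ ^ q * g) ((q : ℤ) • e₀ + b)) : ℝ) =
      q * R.ord (hm t h₀ e₀) + R.ord (hm t g b) := by
  rw [Cx.hm_mul t0, Cx.hm_pow t0, Pl.ord_mul _ (pow_ne_zero _ (Cx.hm_ne t0 h0 _)) (Cx.hm_ne t0 g0 _),
    Pl.ord_pow]
  push_cast
  rfl

/-- **KLF** -/
theorem klf : KLF := by
  intro K F _ _ _ _ _ _ d k N q ε y t T D s a u l h₀ g e₀ b Q X R hR
  obtain ⟨c, f, x⟩ := Kl.dx X
  obtain ⟨k1, k2⟩ := Mp.lk X.q0 X.ε0 x X.ext R hR
  have q0 : (0 : ℝ) < q := Nat.cast_pos.2 X.q0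
  refine ⟨?_, ?_, fun p => ?_⟩
  · rw [sub_nonneg, div_le_iff₀' q0] at k1
    exact sub_nonneg.2 k1
  · rw [Kl.ord X.ext.ind.ne_zero X.can.1 X.g0, add_div, mul_div_cancel_left₀ _ q0.ne'] at k2
    linarith
  · obtain ⟨E, hE, v⟩ | z := pdv K F d k y t X.ext X.fr N T D s a X.cox R p
    · rw [v.lt, v.ord _ _ X.can.1, X.can.2 E hE]
      push_cast
      ring
    · rw [kah K F d k y t X.ext X.fr N T D s a X.cox R p z, z _ _ X.can.1]
      simp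

end Vale.Agent.P283R.Hb
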