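import Vale.Agent.P283R.Hb.St
import Vale.Agent.P283R.Ws.Half
import Vale.Agent.P283R.Hz.Can
import Vale.Agent.P283R.Cx.All
import Vale.Agent.P283R.H.Tpd

/-!
# P283R, block HB: the special fibre of the degeneration is reduced
-/

open Set

noncomputable section

namespace Vale.Agent.P283R.Hb.On1

open Vale.Agent.P287D Vale.Agent.P283M Vale.Agent.P283R.Cx Vale.Agent.P283R.Cy Vale.Agent.P283R.Hz
open Vale.Agent.P297Z

section core

variable {E : Type} [Field E] [Algebra ℂ E] {n N D V : ℕ} {τ : E} {x : Fin N → E} {W : Pl E}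

theorem ind (h : FF E (n + 1))
    (k : Algebra.IsAlgebraic (IntermediateField.adjoin ℂ (range fun j => W.rd (x j))) W.κ) :
    ∃ A : Fin n → Fin N, AlgebraicIndependent ℂ fun i => W.rd (x (A i)) := by
  have := IntermediateField.isAlgebraic_adjoin_iff_top.1 k
  obtain ⟨s, hs, hb⟩ := exists_isTranscendenceBasis_subset (R := ℂ) (range fun j => W.rd (x j))
  have e : Cardinal.mk (Fin n) = Cardinal.mk s := by
    rw [hb.cardinalMk_eq_trdeg, Cb.trdeg_κ h, Cardinal.mk_fin]
  obtain ⟨g⟩ := Cardinal.eq.1 e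
  choose j hj using fun i => hs (g i).2
  refine ⟨j, ?_⟩
  have : (fun i => W.rd (x (j i))) = Subtype.val ∘ g := funext hj
  rw [this]
  exact hb.1.comp g g.injective

theorem ff (h : FF E (n + 1)) (D0 : 0 < D)
    (gen : ∀ a : E, a ∈ IntermediateField.adjoin ℂ (insert τ (range x))) :
    FF (IntermediateField.adjoin ℂ (insert (τ ^ D) (range x))) (n + 1) := by
  set L := IntermediateField.adjoin ℂ (insert (τ ^ D) (range x)) with hL
  have le : IntermediateField.adjoin ℂ (insert τ (range x)) ≤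
      (algebraicClosure L E).restrictScalars ℂ := IntermediateField.adjoin_le_iff.2 (by
    rintro _ (rfl | ⟨j, rfl⟩)
    · exact mem_algebraicClosure_iff.2 (IsAlgebraic.of_pow D0 (isAlgebraic_algebraMap
        (⟨_, IntermediateField.subset_adjoin _ _ (mem_insert _ _)⟩ : L)))
    · exact mem_algebraicClosure_iff.2 (isAlgebraic_algebraMap
        (⟨_, IntermediateField.subset_adjoin _ _ (mem_insert_of_mem _ ⟨j, rfl⟩)⟩ : L)))
  have : Algebra.IsAlgebraic L E := ⟨fun a => mem_algebraicClosure_iff.1 (le (gen a))⟩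
  obtain ⟨m, -, hm⟩ := Gm.ff_sub h L
  have e := trdeg_add_eq ℂ L (A := E)
  rw [hm.trdeg, h.trdeg, trdeg_eq_zero, add_zero] at e
  rwa [← Nat.cast_injective e]

theorem core (hE : FF E (n + 1)) (hV : 2 * V + 2 ≤ D)
    (au : ∀ ω : ℂ, ω ^ D = 1 → ∃ ρ : E →ₐ[ℂ] E, ρ τ = algebraMap ℂ E ω * τ ∧ ∀ j, ρ (x j) = x j)
    (gen : ∀ a : E, a ∈ IntermediateField.adjoin ℂ (insert τ (range x)))
    (sk : ∀ a, IsIntegral (Algebra.adjoin ℂ (insert τ (range x))) a →
      τ ^ V * a ∈ Algebra.adjoin ℂ (insert τ (range x)))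
    (pos : 0 < W.ord τ) (mem : ∀ j, x j ∈ W.ring)
    (alg : Algebra.IsAlgebraic (IntermediateField.adjoin ℂ (range fun j => W.rd (x j))) W.κ)
    {φ : E} (hφ : φ ∈ IntermediateField.adjoin ℂ (insert (τ ^ D) (range x))) :
    D * W.ord τ ∣ W.ord φ := by
  have D0 : 0 < D := by omega
  have hL := ff hE D0 gen
  have t0 : τ ≠ 0 := On.ne_of_pos pos
  set L := IntermediateField.adjoin ℂ (insert (τ ^ D) (range x)) with eL
  set B := Algebra.adjoin ℂ (insert (τ ^ D) (range x)) with eB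
  have BL : ∀ a ∈ B, a ∈ L := fun a ha => IntermediateField.algebra_adjoin_le_adjoin ℂ _ ha
  have sB : τ ^ D ∈ B := Algebra.subset_adjoin (mem_insert _ _)
  have xB : ∀ j, x j ∈ B := fun j => Algebra.subset_adjoin (mem_insert_of_mem _ ⟨j, rfl⟩)
  let R : Subalgebra ℂ L := B.comap L.val
  have eR : R.map L.val = B := Subalgebra.map_comap_eq_self fun a ha => ⟨⟨a, BL a ha⟩, rfl⟩
  let σ : L := ⟨τ ^ D, BL _ sB⟩
  have σ0 : σ ≠ 0 := fun e => pow_ne_zero D t0 (congrArg Subtype.val e)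
  have hf : Ws.Half R σ := by
    refine Ws.half R (σ := σ) sB σ0 (τ := τ) rfl hV (Ws.indep t0 D0 fun ω hω => ?_) ?_ sk
    · obtain ⟨ρ, r1, r2⟩ := au ω hω
      have k : ∀ a ∈ L, ρ a = a := fun a ha => by
        induction ha using IntermediateField.adjoin_induction with
        | mem a ha =>
          rcases ha with rfl | ⟨j, rfl⟩
          · rw [map_pow, r1, mul_pow, ← map_pow, hω, map_one, one_mul]
          · exact r2 j
        | algebraMap c => exact ρ.commutes c
        | add a b _ _ p q => rw [map_add, p, q]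
        | inv a _ p => rw [map_inv₀, p]
        | mul a b _ _ p q => rw [map_mul, p, q]
      exact ⟨{ ρ.toRingHom with commutes' := fun a => k a a.2 }, r1⟩
    · refine le_antisymm (Algebra.adjoin_le ?_) (Algebra.adjoin_le ?_)
      · rintro _ (rfl | ⟨j, rfl⟩)
        · exact Algebra.subset_adjoin (mem_insert _ _)
        · exact Algebra.subset_adjoin (mem_insert_of_mem _ ⟨⟨_, BL _ (xB j)⟩, xB j, rfl⟩)
      · rintro _ (rfl | ⟨a, ha, rfl⟩)
        · exact Algebra.subset_adjoin (mem_insert _ _)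
        · refine (Algebra.adjoin_le ?_ : B ≤ _) ha
          rintro _ (rfl | ⟨j, rfl⟩)
          · exact pow_mem (Algebra.subset_adjoin (mem_insert _ _)) _
          · exact Algebra.subset_adjoin (mem_insert_of_mem _ ⟨j, rfl⟩)
  have af : Aff (n + 1) R := ⟨hL, Subalgebra.fg_of_fg_map _ L.val L.val.injective
    (eR ▸ Subalgebra.fg_def.2 ⟨_, (finite_range _).insert _, rfl⟩), fun a => by
      obtain ⟨r, hr, s, hs, e⟩ := IntermediateField.mem_adjoin_iff_div.1 a.2
      exact ⟨⟨⟨r, BL r hr⟩, hr⟩, ⟨⟨s, BL s hs⟩, hs⟩, Subtype.ext e⟩⟩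
  have hc : ∀ c, algebraMap L E (algebraMap ℂ L c) = algebraMap ℂ E c := fun _ => rfl
  have os : W.ord (algebraMap L E σ) = D * W.ord τ := Pl.ord_pow _ _ _
  have ps : 0 < W.ord (algebraMap L E σ) := os ▸ mul_pos (by exact_mod_cast D0) pos
  obtain ⟨U, l⟩ := (pb_lies _ _ L E _ hL hE hc W).resolve_left fun k => by
    have := Pl.ord_nonneg_of_mem _ (k σ⁻¹)
    rw [map_inv₀, Pl.ord_inv] at this
    omega
  have BW : ∀ a ∈ B, a ∈ W.ring := fun a ha => Cb.adj_mem (by
    rintro _ (rfl | ⟨j, rfl⟩)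
    exacts [pow_mem (Cb.mem_ord pos.le) _, mem j]) ha
  have RU : ∀ a ∈ R, a ∈ U.ring := fun a ha => (l a).2 (BW _ ha)
  obtain ⟨A, hA⟩ := ind hE alg
  let u : Fin n → L := fun i => ⟨x (A i), BL _ (xB _)⟩
  have uU : ∀ i, u i ∈ U.ring := fun i => RU _ (xB _)
  have iu : AlgebraicIndependent ℂ fun i => U.rd (u i) := by
    refine AlgebraicIndependent.of_comp (Cb.ah l.κ fun c => ?_) ?_
    · rw [← Cb.rd_const, l.isRd _ (U.con c), hc, Cb.rd_const]
    · exact (congrArg (fun w => AlgebraicIndependent ℂ w) (funext fun i =>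
        (l.isRd _ (uU i)).symm)).mp hA
  have sp := (Cb.Ada.sp (π := U.t) ⟨U.ord_t, uU, iu⟩ hL).2
  have pd : PD R U := H.tpd _ _ R U af (hf.nor sB σ0 af.fr) ⟨RU, fun a =>
    On.alg_mono Subtype.val_injective Subtype.val_injective (fun r => ⟨⟨r, Algebra.adjoin_mono
      (image_mono (by rintro _ ⟨i, rfl⟩; exact xB _)) r.2⟩, rfl⟩) (sp a)⟩
  have o1 := hf.ord σ0 pd ((l.ord_pos_iff σ).1 ps)
  have e1 := l.ord σ
  rw [o1, mul_one, os] at e1
  exact ⟨U.ord ⟨φ, hφ⟩, e1 ▸ l.ord ⟨φ, hφ⟩⟩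

end core

section data

variable {K F E : Type} [Field K] [Algebra ℂ K] [Field F] [Algebra ℂ F] [Algebra K F]
  [IsScalarTower ℂ K F] [Field E] [Algebra ℂ E] [Algebra F E] [IsScalarTower ℂ F E]
  {d k n N D : ℕ} {t : Fin k → F} {τ : E} {s : Fin N → K} {a : Fin N → Fin k → ℤ}
  {v : Fin N → ℕ}

/-- an automorphism extends -/
theorem ext (h : Ext F n fun _ : Fin 1 => τ) (σ : F ≃ₐ[ℂ] F) : ∃ ρ : E →ₐ[ℂ] E, ρ τ = τ ∧
    ∀ f, ρ (algebraMap F E f) = algebraMap F E (σ f) := by
  obtain ⟨e, he⟩ := Grp.eqv h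
  let b : FractionRing (MvPolynomial (Fin 1) F) ≃+* FractionRing (MvPolynomial (Fin 1) F) :=
    IsFractionRing.ringEquivOfRingEquiv (MvPolynomial.mapEquiv (Fin 1) σ.toRingEquiv)
  let r : E →+* E := (e.symm.toRingEquiv.trans (b.trans e.toRingEquiv)).toRingHom
  have k : ∀ f, r (algebraMap F E f) = algebraMap F E (σ f) := fun f => by
    change e (b (e.symm _)) = _
    rw [e.symm.commutes, IsScalarTower.algebraMap_apply F (MvPolynomial (Fin 1) F),
      IsFractionRing.ringEquivOfRingEquiv_algebraMap, ← e.commutes (σ f),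
      IsScalarTower.algebraMap_apply F (MvPolynomial (Fin 1) F)
        (FractionRing (MvPolynomial (Fin 1) F)) (σ f)]
    simp
  refine ⟨{ r with commutes' := fun c => ?_ }, ?_, k⟩
  · change r _ = _
    rw [IsScalarTower.algebraMap_apply ℂ F E, k, σ.commutes]
  · change e (b (e.symm _)) = _
    rw [← he 0, e.symm_apply_apply, IsFractionRing.ringEquivOfRingEquiv_algebraMap]
    simp

theorem ex_dg {e : Fin k → ℤ} {φ : K} (h : φ ∈ Sp s a e) (h0 : φ ≠ 0) :
    ∃ c, dg a c = e := by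
  by_contra c
  rw [Sp, show {c | dg a c = e} = ∅ from eq_empty_of_forall_notMem fun m hm => c ⟨m, hm⟩,
    image_empty, Submodule.span_empty] at h
  exact h0 h

theorem dg_eq (a : Fin N → Fin k → ℤ) (c : Fin N → ℕ) : ∑ j, (c j : ℤ) • a j = dg a c := by
  funext i
  simp [dg, Finset.sum_apply]

theorem pz {ω : ℂ} (h : ω ≠ 0) (f : Fin k → ℤ) : ∏ i, ω ^ f i = ω ^ ∑ i, f i := by
  induction (Finset.univ : Finset (Fin k)) using Finset.induction_on with
  | empty => simp
  | insert i T hi ih => rw [Finset.prod_insert hi, Finset.sum_insert hi, ih, zpow_add₀ h]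

theorem au (h : Ext K d t) (hτ : Ext F n fun _ : Fin 1 => τ) (D0 : 0 < D)
    (fr : ∀ e, ∃ m : Fin N → ℤ, ∑ j, m j • a j = e)
    (dv : ∀ m : Fin N → ℤ, ∑ j, m j • a j = 0 → (D : ℤ) ∣ ∑ j, v j * m j) (ω : ℂ)
    (hω : ω ^ D = 1) : ∃ ρ : E →ₐ[ℂ] E, ρ τ = algebraMap ℂ E ω * τ ∧
      ∀ j, ρ (xs (zz t s a) τ v j) = xs (zz t s a) τ v j := by
  classical
  have ω0 : ω ≠ 0 := fun z => by simp [z, D0.ne'] at hω
  choose m hm using fr
  obtain ⟨σ, s1, s2⟩ := Grp.aut h (c := fun i => ω ^ ∑ j, (v j : ℤ) * m (Pi.single i 1) j)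
    fun i => zpow_ne_zero _ ω0
  obtain ⟨ρ, r1, r2⟩ := ext hτ σ
  obtain ⟨β, b1, b2⟩ := Grp.aut hτ (c := fun _ => ω) fun _ => ω0
  refine ⟨(β : E →ₐ[ℂ] E).comp ρ, ?_, fun j => ?_⟩
  · change β (ρ τ) = _
    rw [r1, b2 0, Algebra.smul_def]
  · have e1 : ∏ i, (ω ^ ∑ l, (v l : ℤ) * m (Pi.single i 1) l) ^ a j i = ω ^ v j := by
      obtain ⟨c, hc⟩ := dv (fun l => ∑ i, a j i * m (Pi.single i 1) l -
          (Pi.single j 1 : Fin N → ℤ) l) (by
        simp only [sub_smul, Finset.sum_sub_distrib, Finset.sum_smul, mul_smul]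
        rw [Finset.sum_comm]
        simp only [← Finset.smul_sum, hm]
        rw [Finset.sum_eq_single j (fun l _ e => by simp [e]) (by simp)]
        funext i
        simp [Finset.sum_apply, Pi.single_apply])
      have e2 : ∑ i, (∑ l, (v l : ℤ) * m (Pi.single i 1) l) * a j i = v j + D * c := by
        rw [← hc]
        simp only [mul_sub, Finset.sum_sub_distrib, Finset.mul_sum, Finset.sum_mul]
        rw [Finset.sum_comm, Finset.sum_eq_single j
          (f := fun l => (v l : ℤ) * (Pi.single j 1 : Fin N → ℤ) l)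
          (fun l _ e => by simp [e]) (by simp)]
        simp only [Pi.single_eq_same, mul_one, add_sub_cancel]
        exact Finset.sum_congr rfl fun l _ => Finset.sum_congr rfl fun i _ => by ring
      simp only [← zpow_mul]
      rw [pz ω0, e2, zpow_add₀ ω0, zpow_mul, zpow_natCast, zpow_natCast, hω, one_zpow, mul_one]
    change β (ρ _) = _
    rw [xs, map_div₀, map_pow, r1, r2, zz, Grp.map_hm s1 s2, e1, map_div₀, map_pow, b1, b2 0,
      Algebra.smul_def, Algebra.smul_def, map_mul, ← IsScalarTower.algebraMap_apply, mul_pow,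
      map_pow, mul_div_mul_left _ _ (pow_ne_zero _ ((map_ne_zero _).2 ω0))]

theorem mem (ht : ∀ i, t i ≠ 0) (t0 : τ ≠ 0)
    (dv : ∀ m : Fin N → ℤ, ∑ j, m j • a j = 0 → (D : ℤ) ∣ ∑ j, v j * m j) (c : Fin N → ℕ) {φ : K}
    (h : φ ∈ Sp s a (dg a c)) : algebraMap F E (hm t φ (dg a c)) / τ ^ ∑ j, v j * c j ∈
      IntermediateField.adjoin ℂ (insert (τ ^ D) (range (xs (zz t s a) τ v))) := by
  induction h using Submodule.span_induction with
  | mem x hx =>
    obtain ⟨m, e, rfl⟩ := hx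
    obtain ⟨r, hr⟩ := dv (fun j => (m j : ℤ) - c j) (by
      simp only [sub_smul, Finset.sum_sub_distrib, dg_eq]
      exact sub_eq_zero.2 e)
    have e1 : algebraMap F E (hm t (∏ j, s j ^ m j) (dg a m)) =
        (∏ j, xs (zz t s a) τ v j ^ m j) * τ ^ ∑ j, v j * m j := by
      rw [hm_prod ht, map_prod, ← Finset.prod_pow_eq_pow_sum, ← Finset.prod_mul_distrib]
      refine Finset.prod_congr rfl fun j _ => ?_
      rw [xs, pow_mul, ← mul_pow, div_mul_cancel₀ _ (pow_ne_zero _ t0), map_pow, zz]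
    have e2 : τ ^ (∑ j, v j * m j) / τ ^ (∑ j, v j * c j) = (τ ^ D) ^ r := by
      rw [← zpow_natCast, ← zpow_natCast, ← zpow_natCast, ← zpow_sub₀ t0, ← zpow_mul, ← hr]
      simp only [mul_sub, Finset.sum_sub_distrib]
      push_cast
      rfl
    change dg a m = dg a c at e
    change algebraMap F E (hm t (∏ j, s j ^ m j) _) / _ ∈ _
    rw [← e, e1, mul_div_assoc, e2]
    exact mul_mem (prod_mem fun j _ => pow_mem (IntermediateField.subset_adjoin _ _
      (mem_insert_of_mem _ (mem_range_self j))) _)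
      (zpow_mem (IntermediateField.subset_adjoin _ _ (mem_insert _ _)) _)
  | zero => rw [hm_zero, map_zero, zero_div]; exact zero_mem _
  | add x y _ _ hx hy => rw [hm_add, map_add, add_div]; exact add_mem hx hy
  | smul r x _ hx =>
    rw [hm_smul, Algebra.smul_def, map_mul, ← IsScalarTower.algebraMap_apply, mul_div_assoc]
    exact mul_mem (IntermediateField.algebraMap_mem _ r) hx

omit [Algebra ℂ K] [IsScalarTower ℂ K F] in
theorem gen {z : Fin N → F} (t0 : τ ≠ 0)
    (fr : ∀ f : F, ∃ p q : Algebra.adjoin ℂ (range z), f = p / q)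
    (g : IntermediateField.adjoin F (range fun _ : Fin 1 => τ) = ⊤) (x : E) :
    x ∈ IntermediateField.adjoin ℂ (insert τ (range (xs z τ v))) := by
  have tm : τ ∈ IntermediateField.adjoin ℂ (insert τ (range (xs z τ v))) :=
    IntermediateField.subset_adjoin _ _ (mem_insert _ _)
  have rg : ∀ f ∈ Algebra.adjoin ℂ (range z),
      algebraMap F E f ∈ IntermediateField.adjoin ℂ (insert τ (range (xs z τ v))) := fun f hf => by
    induction hf using Algebra.adjoin_induction with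
    | mem x hx =>
      obtain ⟨j, rfl⟩ := hx
      rw [← div_mul_cancel₀ (algebraMap F E (z j)) (pow_ne_zero (v j) t0)]
      exact mul_mem (IntermediateField.subset_adjoin _ _ (mem_insert_of_mem _ ⟨j, rfl⟩))
        (pow_mem tm _)
    | algebraMap c =>
      rw [← IsScalarTower.algebraMap_apply]
      exact IntermediateField.algebraMap_mem _ c
    | add x y _ _ a b => rw [map_add]; exact add_mem a b
    | mul x y _ _ a b => rw [map_mul]; exact mul_mem a b
  have : x ∈ IntermediateField.adjoin F (range fun _ : Fin 1 => τ) := g ▸ trivial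
  induction this using IntermediateField.adjoin_induction with
  | mem x hx =>
    obtain ⟨_, rfl⟩ := hx
    exact tm
  | algebraMap x =>
    obtain ⟨p, q, rfl⟩ := fr x
    rw [map_div₀]
    exact div_mem (rg _ p.2) (rg _ q.2)
  | add x y _ _ a b => exact add_mem a b
  | inv x _ a => exact inv_mem a
  | mul x y _ _ a b => exact mul_mem a b

end data

/-- **ONE** -/
theorem one_of (sko : SKO) : ONE := by
  intro K F _ _ _ _ _ _ d k N q ε y t T D s a u l h₀ g e₀ b Q dz E _ _ _ _ τ ex r v W sv wp φ φ0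
  have t0 : τ ≠ 0 := ex.ind.ne_zero 0
  have ht := dz.ext.ind.ne_zero
  obtain ⟨j, hj⟩ := off K F d k N q ε y t T D s a u l h₀ g e₀ b Q dz
  have v1 : 1 ≤ ∑ j, v j :=
    ((sv.pos j).2 hj).trans_le (Finset.single_le_sum (fun _ _ => Nat.zero_le _) (Finset.mem_univ j))
  have hV : 2 * ∑ j, v j + 2 ≤ r := by
    have k1 := sv.lt
    have k2 : (0 : ℝ) < 4 * (N + 1) := by positivity
    rw [one_div, inv_mul_eq_div, lt_div_iff₀ k2, ← Nat.cast_sum] at k1
    have k3 : (∑ j, v j) * (4 * (N + 1)) < r := by exact_mod_cast k1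
    nlinarith
  refine core ex.ff' hV (au dz.ext ex sv.D0 (fun e => ?_) sv.dvd)
    (gen t0 (aff K F d k y t dz.ext dz.fr N T D s a dz.cox).fr ex.gen)
    (sko K F d k N q ε y t T D s a u l h₀ g e₀ b Q dz E τ ex v) wp.pos wp.mem wp.alg ?_
  · obtain ⟨e', p, hp, p', hp', p0, p0'⟩ := dz.cox.fr1 e
    obtain ⟨c, hc⟩ := ex_dg hp p0
    obtain ⟨c', hc'⟩ := ex_dg hp' p0'
    refine ⟨fun j => (c j : ℤ) - c' j, ?_⟩
    simp only [sub_smul, Finset.sum_sub_distrib, dg_eq, hc, hc', add_sub_cancel_right]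
  · obtain ⟨e, p, hp, p', hp', p0, rfl⟩ := dz.cox.fr0 φ
    obtain ⟨c, rfl⟩ := ex_dg hp' p0
    have := div_mem (mem ht t0 sv.dvd c hp) (mem ht t0 sv.dvd c hp')
    rwa [div_div_div_cancel_right₀ (pow_ne_zero _ t0), ← map_div₀, hm, hm,
      mul_div_mul_right _ _ (To.mon_ne ht _), ← map_div₀] at this

end Vale.Agent.P283R.Hb.On1
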