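import Vale.Agent.P283R.Hb.St
import Vale.Agent.P283R.Ws.Half
import Vale.Agent.P283R.Hw.Exw

/-!
# P283R, block HB: the special fibre is reduced, the part on places
-/

open Set

noncomputable section

namespace Vale.Agent.P283R.Hb.On2

open Vale.Agent.P287D Vale.Agent.P297Z

variable {E : Type} [Field E] [Algebra ℂ E] {m N : ℕ}

/-- a place with enough independent residues of regular functions is a prime divisor -/
theorem pd {S : Subalgebra ℂ E} (hA : Aff (m + 1) S) (nor : IsIntegrallyClosed S) {W : Pl E}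
    (hS : ∀ a ∈ S, a ∈ W.ring) (w : Fin m → S)
    (hw : ∀ G : MvPolynomial (Fin m) ℂ, G ≠ 0 → W.rd (MvPolynomial.aeval w G : S) ≠ 0) :
    PD S W := by
  have cq : Cen S (RingHom.ker (Cb.rdA S hS)) W := fun a => ⟨hS a a.2, Iff.rfl⟩
  set q := RingHom.ker (Cb.rdA S hS)
  have hq : q.IsPrime := RingHom.ker_isPrime _
  refine ⟨q, cq, fun g hg => Hr.lo_of hA nor hq ?_⟩
  rintro R ⟨q', le, c, lo⟩
  have hR : ∀ a ∈ S, a ∈ R.ring := fun a ha => (c ⟨a, ha⟩).1
  let ψ := Cb.rdA S hR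
  have k : ∀ a : S, a ∈ q' ↔ ψ a = 0 := fun a => (c a).2
  have ind : AlgebraicIndependent ℂ fun i => ψ (w i) := algebraicIndependent_iff.2 fun G hG => by
    by_contra G0
    rw [← MvPolynomial.comp_aeval_apply] at hG
    exact hw G G0 ((cq _).2.1 (le ((k _).2 hG)))
  have bas : IsTranscendenceBasis ℂ fun i => ψ (w i) :=
    ind.isTranscendenceBasis_of_trdeg_le_of_finite (by rw [Cb.trdeg_κ hA.ff, Cardinal.mk_fin])
  have ge : q ≤ q' := fun b hb => by
    by_contra nb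
    obtain ⟨t, ht, r, r0, e⟩ := (bas.isAlgebraic.isAlgebraic (ψ b)).exists_nonzero_eq_adjoin_mul
      (mem_nonZeroDivisors_of_ne_zero fun z => nb ((k b).2 z))
    have rg : ∀ z ∈ Algebra.adjoin ℂ (range fun i => ψ (w i)),
        ∃ G, ψ (MvPolynomial.aeval w G) = z := fun z hz => by
      rw [Algebra.adjoin_range_eq_range_aeval] at hz
      obtain ⟨G, rfl⟩ := hz
      exact ⟨G, MvPolynomial.comp_aeval_apply _ ψ G⟩
    obtain ⟨c', hc⟩ : ∃ c', ψ c' = t := by
      clear e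
      induction ht using Algebra.adjoin_induction with
      | mem z hz => exact ⟨b, hz.symm⟩
      | algebraMap z => exact let ⟨G, e⟩ := rg z z.2; ⟨_, e⟩
      | add x y _ _ hx hy =>
        obtain ⟨x, rfl⟩ := hx
        obtain ⟨y, rfl⟩ := hy
        exact ⟨x + y, map_add _ _ _⟩
      | mul x y _ _ hx hy =>
        obtain ⟨x, rfl⟩ := hx
        obtain ⟨y, rfl⟩ := hy
        exact ⟨x * y, map_mul _ _ _⟩
    obtain ⟨G, hG⟩ := rg r r.2
    have G0 : G ≠ 0 := by
      rintro rfl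
      rw [map_zero, map_zero] at hG
      exact r0 (Subtype.ext hG.symm)
    have : MvPolynomial.aeval w G - b * c' ∈ q' := (k _).2 (by
      rw [map_sub, map_mul, hG, hc, e]
      exact sub_self _)
    have := q.add_mem (le this) (q.mul_mem_right c' hb)
    rw [sub_add_cancel] at this
    exact hw G G0 ((cq _).2.1 this)
  have e : R.ring ≤ W.ring := fun a ha => by
    obtain ⟨s, t, ht, rfl⟩ := lo a ha
    have t0 : (t : E) ≠ 0 := Hr.ne_of_notMem ht
    have o : W.ord (t : E) = 0 := by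
      have h1 := Pl.ord_nonneg_of_mem _ (cq t).1
      have h2 := mt (fun z => ge ((cq t).2.2 z)) ht
      rw [On.rd_zero_iff W (cq t).1] at h2
      push Not at h2
      omega
    rw [div_eq_mul_inv]
    refine mul_mem (cq s).1 ((Pl.ord_nonneg_iff _ (inv_ne_zero t0)).1 ?_)
    rw [Pl.ord_inv, o, neg_zero]
  rw [Pl.ring_eq_of_le e (Pl.ring_ne_top W.toPlace)]
  exact hg

/-- the field of the degeneration -/
abbrev E0 (τ : E) (D : ℕ) (x : Fin N → E) : IntermediateField ℂ E :=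
  IntermediateField.adjoin ℂ (insert (τ ^ D) (range x))

theorem core {τ : E} {D V : ℕ} {x : Fin N → E} {W : Pl E} (hE : FF E (m + 1))
    (ff : FF (E0 τ D x) (m + 1)) (τ0 : τ ≠ 0) (hV : 2 * V + 2 ≤ D)
    (li : ∀ p : Polynomial (E0 τ D x), p.natDegree < D → Polynomial.aeval τ p = 0 → p = 0)
    (sk : ∀ z : E, IsIntegral (Algebra.adjoin ℂ (insert τ (range x))) z →
      τ ^ V * z ∈ Algebra.adjoin ℂ (insert τ (range x)))
    (hx : ∀ j, x j ∈ W.ring) (pos : 0 < W.ord τ) (J : Fin m → Fin N)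
    (ind : AlgebraicIndependent ℂ fun i => W.rd (x (J i))) {φ : E} (hφ : φ ∈ E0 τ D x) :
    D * W.ord τ ∣ W.ord φ := by
  classical
  let σ : E0 τ D x := ⟨τ ^ D, IntermediateField.subset_adjoin _ _ (mem_insert _ _)⟩
  let x' : Fin N → E0 τ D x := fun j =>
    ⟨x j, IntermediateField.subset_adjoin _ _ (mem_insert_of_mem _ ⟨j, rfl⟩)⟩
  let R : Subalgebra ℂ (E0 τ D x) := Algebra.adjoin ℂ (insert σ (range x'))
  have mp : R.map (E0 τ D x).val = Algebra.adjoin ℂ (insert (τ ^ D) (range x)) := by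
    rw [AlgHom.map_adjoin, image_insert_eq, ← range_comp]
    rfl
  have σ0 : σ ≠ 0 := fun e => pow_ne_zero D τ0 (congrArg Subtype.val e)
  have σR : σ ∈ R := Algebra.subset_adjoin (mem_insert _ _)
  have xR : ∀ j, x' j ∈ R := fun j => Algebra.subset_adjoin (mem_insert_of_mem _ ⟨j, rfl⟩)
  have hA : Algebra.adjoin ℂ (insert τ (range x)) =
      Algebra.adjoin ℂ (insert τ (algebraMap (E0 τ D x) E '' R)) := by
    refine le_antisymm (Algebra.adjoin_mono (insert_subset_insert ?_))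
      (Algebra.adjoin_le (insert_subset (Algebra.subset_adjoin (mem_insert _ _)) ?_))
    · rintro _ ⟨j, rfl⟩
      exact ⟨x' j, xR j, rfl⟩
    · rintro _ ⟨a, ha, rfl⟩
      have : (a : E) ∈ Algebra.adjoin ℂ (insert (τ ^ D) (range x)) := mp ▸ ⟨a, ha, rfl⟩
      exact Algebra.adjoin_le (insert_subset (pow_mem (Algebra.subset_adjoin (mem_insert _ _)) _)
        fun z hz => Algebra.subset_adjoin (mem_insert_of_mem _ hz)) this
  have hf : Ws.Half R σ := Ws.half R σR σ0 (τ := τ) rfl hV li hA sk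
  have fr : ∀ a : E0 τ D x, ∃ s t : R, a = s / t := fun a => by
    obtain ⟨r, hr, s, hs, e⟩ := IntermediateField.mem_adjoin_iff_div.1 a.2
    rw [← mp] at hr hs
    obtain ⟨r, hr, rfl⟩ := hr
    obtain ⟨s, hs, rfl⟩ := hs
    exact ⟨⟨r, hr⟩, ⟨s, hs⟩, Subtype.ext e⟩
  have af : Aff (m + 1) R :=
    ⟨ff, Subalgebra.fg_def.2 ⟨_, (finite_range x').insert σ, rfl⟩, fr⟩
  have D0 : 0 < D := by omega
  have oσ : W.ord (algebraMap (E0 τ D x) E σ) = D * W.ord τ := Pl.ord_pow _ _ _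
  have pσ : 0 < W.ord (algebraMap (E0 τ D x) E σ) := oσ ▸ mul_pos (Nat.cast_pos.2 D0) pos
  obtain ⟨W₀, L⟩ := (pb_lies _ _ (E0 τ D x) E (algebraMap _ E) ff hE (fun c => rfl)
    W).resolve_left fun k => by
      have := Pl.ord_nonneg_of_mem _ (k σ⁻¹)
      rw [map_inv₀, Pl.ord_inv] at this
      omega
  have hS : ∀ a ∈ R, a ∈ W₀.ring := fun a ha => (L a).2 (Cb.adj_mem (S := insert (τ ^ D) (range x))
    (by
      rintro _ (rfl | ⟨j, rfl⟩)
      · exact pow_mem ((Pl.ord_nonneg_iff _ τ0).1 pos.le) _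
      · exact hx j) (mp ▸ ⟨a, ha, rfl⟩))
  have hp : PD R W₀ := pd af (hf.nor σR σ0 fr) hS (fun i => ⟨x' (J i), xR _⟩) fun G G0 z => by
    have e := L.isRd _ (hS _ (MvPolynomial.aeval (fun i => (⟨x' (J i), xR _⟩ : R)) G).2)
    rw [z, map_zero] at e
    have e' : algebraMap (E0 τ D x) E (MvPolynomial.aeval (fun i => (⟨x' (J i), xR _⟩ : R)) G : R) =
        MvPolynomial.aeval (fun i => x (J i)) G :=
      MvPolynomial.comp_aeval_apply _ ((E0 τ D x).val.comp R.val) G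
    rw [e', Cb.rd_aeval fun i => hx (J i)] at e
    exact G0 (algebraicIndependent_iff.1 ind G e.symm)
  have o1 := hf.ord σ0 hp ((L.ord_pos_iff σ).1 pσ)
  have o2 := L.ord σ
  rw [o1, mul_one, oσ] at o2
  exact ⟨W₀.ord ⟨φ, hφ⟩, o2 ▸ L.ord ⟨φ, hφ⟩⟩

end Vale.Agent.P283R.Hb.On2
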