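import Vale.Agent.P283R.Hb.St
import Vale.Agent.P283R.Hw.Hj

/-!
# P283R, block HB: the form of a frame of generators
-/

open Set

namespace Vale.Agent.P283R.Hb.R52

open Vale.Agent.P287D Vale.Agent.P297Z Vale.Agent.P283R.Cx Vale.Agent.P283R.Cy Vale.Agent.P283R.Hz

theorem rho : RHO := fun K F _ _ _ _ _ _ d k N q ε y t T D s a u l h₀ g e₀ b Q H J hJ => by
  have t0 := H.ext.ind.ne_zero
  obtain ⟨ψ, ψ0, hψ⟩ := Hw.hj H.ext H.fr (φ := fun i => s (J i)) (β := fun i => a (J i)) hJ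
  have p0 := mul_ne_zero ψ0 H.can.1
  have mem : ψ * h₀ ∈ Sp s a (∑ i, a (J i) + e₀) := (H.cox.sec _ _ p0).2 fun P hP => by
    obtain ⟨v, hv⟩ := gav K F d k y t H.ext H.fr P (D P)
    have k1 := hψ v
    have k2 : 0 ≤ kap (fun i => hm t (s (J i)) (a (J i))) v := Cb.kap_nonneg H.ext.ff' fun i =>
      Cb.mem_ord ((hv.ord _ _ (H.cox.ne (J i))).ge.trans' (Cxj.dv_nn H.cox hP (J i)))
    rw [hv.lt, hv.ord _ _ ψ0, H.can.2 P hP] at k1
    rw [Pl.ord_mul _ ψ0 H.can.1, add_dotProduct, ← Int.cast_nonneg_iff (R := ℝ)]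
    push_cast at k1 ⊢
    linarith
  have pw : ∀ n : ℕ, (ψ * h₀) ^ n ∈ Sp s a ((n : ℤ) • (∑ i, a (J i) + e₀)) := fun n => by
    induction n with
    | zero => simpa [dg_zero] using mon_mem s a 0
    | succ n ih => rw [pow_succ, Nat.cast_succ, add_smul, one_smul]; exact sp_mul ih mem
  have g0 := mul_ne_zero (pow_ne_zero q H.can.1) H.g0
  refine ⟨h₀ ^ q * g * ψ ^ q, mul_ne_zero g0 (pow_ne_zero q ψ0), ?_, fun R => ?_⟩
  · have := sp_mul (pw q) H.gs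
    rwa [show (ψ * h₀) ^ q * g = h₀ ^ q * g * ψ ^ q by ring, show (q : ℤ) • (∑ i, a (J i) + e₀) + b =
      (q : ℤ) • e₀ + b + (q : ℤ) • ∑ i, a (J i) by rw [smul_add]; abel] at this
  · rw [hm_mul t0 (h₀ ^ q * g), hm_pow t0, Pl.ord_mul _ (hm_ne t0 g0 _)
      (pow_ne_zero _ (hm_ne t0 ψ0 _)), Pl.ord_pow]
    have := hψ R
    simp only [zz]
    rw [this]
    push_cast
    ring

end Vale.Agent.P283R.Hb.R52
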