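import Vale.Agent.P283R.Hb.St
import Vale.Agent.P283R.Cx.All
import Vale.Agent.P283R.Ws.Gskt

/-!
# P283R, block HB: the theorem of Skoda for the Rees ring
-/

open Set Polynomial

noncomputable section

namespace Vale.Agent.P283R.Hb

open Vale.Agent.P287D Vale.Agent.P283M Vale.Agent.P283R.Cx Vale.Agent.P283R.Hz Vale.Agent.P297Z
open Vale.Agent.P287D.Hd.Ln Vale.Agent.P283R.Sk1

namespace Sko

variable {F E : Type} [Field F] [Algebra ℂ F] [Field E] [Algebra ℂ E] [Algebra F E]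
  [IsScalarTower ℂ F E] {n N m : ℕ} {τ : E} {y : Fin n → F} {h : F} {z : Fin N → F}

/-- the Rees ring of a klt variety -/
theorem rees (hτ : Hd.Ru F τ) (hS : Aff n (Algebra.adjoin ℂ (range z)))
    (nor : IsIntegrallyClosed (Algebra.adjoin ℂ (range z))) (hy : Frm y) (hm : 0 < m) (h0 : h ≠ 0)
    (bd : ∀ R, PD (Algebra.adjoin ℂ (range z)) R → ld y m h R ≤ 1)
    (klt : ∀ R : Pl F, (∀ s ∈ Algebra.adjoin ℂ (range z), s ∈ R.ring) → 0 < ld y m h R)
    (v : Fin N → ℕ) {x : E} (hx : IsIntegral (Algebra.adjoin ℂ (insert τ (range (xs z τ v)))) x) :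
    τ ^ (∑ j, v j) * x ∈ Algebra.adjoin ℂ (insert τ (range (xs z τ v))) := by
  classical
  have hF := hS.ff
  have τ0 := hτ.ne_zero
  set u := insert τ ((Finset.univ.image z).image (algebraMap F E)) with hu
  set S := Algebra.adjoin ℂ (u : Set E) with hS'
  have τS : τ ∈ S := Algebra.subset_adjoin (Finset.mem_insert_self _ _)
  have zS : ∀ j, algebraMap F E (z j) ∈ S := fun j => Algebra.subset_adjoin (Finset.mem_insert_of_mem
    (Finset.mem_image_of_mem _ (Finset.mem_image_of_mem _ (Finset.mem_univ j))))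
  have im : ∀ b ∈ Algebra.adjoin ℂ (range z), algebraMap F E b ∈ S := fun b hb =>
    Algebra.adjoin_le (S := S.comap (IsScalarTower.toAlgHom ℂ F E))
      (by rintro _ ⟨j, rfl⟩; exact zS j) hb
  have e : Algebra.adjoin ℂ ((S : Set E) ∪ range fun j => algebraMap F E (z j) / τ ^ v j) =
      Algebra.adjoin ℂ (insert τ (range (xs z τ v))) := by
    refine le_antisymm (Algebra.adjoin_le (union_subset (Algebra.adjoin_le fun a ha => ?_)
      fun a ha => Algebra.subset_adjoin (.inr ha))) (Algebra.adjoin_mono (insert_subset (.inl τS)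
        subset_union_right))
    rcases Finset.mem_insert.1 ha with rfl | ha
    · exact Algebra.subset_adjoin (.inl rfl)
    obtain ⟨b, hb, rfl⟩ := Finset.mem_image.1 ha
    obtain ⟨j, -, rfl⟩ := Finset.mem_image.1 hb
    rw [← div_mul_cancel₀ (algebraMap F E (z j)) (pow_ne_zero (v j) τ0)]
    exact mul_mem (Algebra.subset_adjoin (.inr ⟨j, rfl⟩))
      (pow_mem (Algebra.subset_adjoin (.inl rfl)) _)
  rw [← e] at hx
  rw [← e, ← Finset.prod_pow_eq_pow_sum]
  refine Ws.gskt (n + 1) N E S u (cw y τ) m (algebraMap F E h) _ _ (hτ.ff hF) (cw_ind hτ hy.ind) hm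
    ((_root_.map_ne_zero _).2 h0) rfl (fun a => ?_) (fun c f c0 hf => ?_) (fun R hR => ?_) zS
    (fun j => pow_mem τS _) (fun j => pow_ne_zero _ τ0) x hx
  · refine IntermediateField.mem_adjoin_iff_div.1 ?_
    set T := IntermediateField.adjoin ℂ (u : Set E)
    have h1 : ∀ b ∈ S, b ∈ T := fun b hb => IntermediateField.algebra_adjoin_le_adjoin _ _ hb
    have h3 : ∀ b, algebraMap F E b ∈ T := fun b => by
      obtain ⟨r, s, rfl⟩ := hS.fr b
      rw [map_div₀]
      exact div_mem (h1 _ (im _ r.2)) (h1 _ (im _ s.2))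
    have h4 : ∀ q : F[X], aeval τ q ∈ T := fun q => by
      rw [aeval_eq_sum_range]
      refine sum_mem fun i _ => ?_
      rw [Algebra.smul_def]
      exact mul_mem (h3 _) (pow_mem (h1 τ τS) _)
    obtain ⟨r, s, -, rfl⟩ := hτ.frac a
    exact div_mem (h4 r) (h4 s)
  · obtain ⟨q, q1, rfl⟩ := L45.line n F E τ y m h _ _ hF hτ hy.ind h0 (Ws.top_of hS nor
      (fun s hs => by
        obtain ⟨j, -, rfl⟩ := Finset.mem_image.1 hs
        exact Algebra.subset_adjoin ⟨j, rfl⟩) bd) c f c0 hf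
    rw [aeval_eq_sum_range]
    refine sum_mem fun i _ => ?_
    rw [Algebra.smul_def]
    exact mul_mem (im _ (q1 i)) (pow_mem τS _)
  · rcases To.trv_or (φ := algebraMap F E) (hτ.ff hF)
      (fun c => (IsScalarTower.algebraMap_apply ℂ F E c).symm) R with t | ⟨Q, l⟩
    · rw [ld, kap_fin hF hτ hy.ind t (hR τ τS), tv_ord t]
      simp
    · have k := k4 hF (hτ.ff hF) l (cw_ind hτ hy.ind)
      have k1 := klt Q fun s hs => (l s).2 (hR _ (im s hs))
      have k2 : (0 : ℝ) < R.ord (algebraMap F E Q.t) := by exact_mod_cast l.e_pos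
      have k3 : (0 : ℝ) ≤ R.ord τ := by exact_mod_cast Pl.ord_nonneg_of_mem _ (hR τ τS)
      have k4 := mul_pos k2 k1
      rw [ld] at k4
      rw [Hd.ei] at k
      rw [ld, l.ord h]
      push_cast
      rw [mul_div_assoc]
      linarith

end Sko

theorem sko_of (klf : KLF) : SKO := by
  intro K F _ _ _ _ _ _ d k N q ε y t T D s a u l h₀ g e₀ b Q H E _ _ _ _ τ hE v x hx
  have K1 := klf K F d k N q ε y t T D s a u l h₀ g e₀ b Q H
  have t0 := H.ext.ind.ne_zero
  have m0 : hm t h₀ e₀ ≠ 0 := mul_ne_zero ((_root_.map_ne_zero _).2 H.can.1) (To.mon_ne t0 _)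
  have p0 : ∏ i, t i ≠ 0 := Finset.prod_ne_zero_iff.2 fun i _ => t0 i
  have e : ∀ R, ld (zt y t) 1 ((∏ i, t i) * hm t h₀ e₀) R = lt y t R - R.ord (hm t h₀ e₀) :=
    fun R => by
      rw [ld, lt, Pl.ord_mul _ p0 m0, To.ord_prod R t0]
      push_cast
      ring
  exact Sko.rees (z := zz t s a) ⟨hE.ind.transcendental 0, by rw [← hE.gen, range_const]⟩
    (aff K F d k y t H.ext H.fr N T D s a H.cox) (nor K F d k y t H.ext H.fr N T D s a H.cox)
    (zt_frm H.ext H.fr) one_pos (mul_ne_zero p0 m0)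
    (fun R hR => by
      obtain ⟨p, c, -⟩ := id hR
      exact ((e R).trans ((K1 R fun x hx => (c ⟨x, hx⟩).1).2.2 hR)).le)
    (fun R hR => e R ▸ (K1 R hR).2.1) v hx

end Vale.Agent.P283R.Hb
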