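import Vale.Agent.P283R.Hz.St
import Vale.Agent.P283R.Bh.Fib

/-!
# P283R, block HB: the places which are trivial on the base, `N` generators (statements)

The words are those of block HZ; no presentation of the ring of the sections is used.
-/

open Set

noncomputable section

namespace Vale.Agent.P283R.Hb

open Vale.Agent.P287D Vale.Agent.P283M Vale.Agent.P283R.Cx Vale.Agent.P283R.Cy Vale.Agent.P283R.Hz

/-- **RHO**: the form `dz_J ^ q` is a homogeneous regular multiple of the generator -/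
def RHO : Prop := ForD fun K F _ _ _ _ _ d k N q _ y t _ _ s a _ _ h₀ g e₀ b _ =>
  ∀ J : Fin (d + k) → Fin N, (AlgebraicIndependent ℂ fun i => zz t s a (J i)) →
    ∃ φ : K, φ ≠ 0 ∧ φ ∈ Sp s a ((q : ℤ) • e₀ + b + (q : ℤ) • ∑ i, a (J i)) ∧ ∀ R : Pl F,
      q * lt y t R - R.ord (hm t (h₀ ^ q * g) ((q : ℤ) • e₀ + b)) =
        q * (1 + kap (fun i => zz t s a (J i)) R) -
          R.ord (hm t φ ((q : ℤ) • e₀ + b + (q : ℤ) • ∑ i, a (J i)))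

/-- **DSG**: the log discrepancy of the places of the Rees ring -/
def DSG : Prop := ForD fun _ F _ _ _ _ _ d k N q _ y t _ _ s a u _ h₀ g e₀ b _ =>
  ForE F (d + k) fun E _ _ _ τ => ∀ (v : Fin N → ℕ) (W : Pl E), (∀ j, 0 < v j ↔ u j = 0) →
    Wp u (zz t s a) τ v W → ∃ (R : Pl F) (J : Fin (d + k) → Fin N) (β : Fin N → ℕ),
      Lies (algebraMap F E) W R ∧ Function.Injective J ∧
      dg a β = (q : ℤ) • e₀ + b + (q : ℤ) • ∑ i, a (J i) ∧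
      W.ord (algebraMap F E R.t) * (q * lt y t R - R.ord (hm t (h₀ ^ q * g) ((q : ℤ) • e₀ + b))) ≤
        W.ord τ * (q * ∑ i, (v (J i) : ℝ) - ∑ j, (v j : ℝ) * β j)

/-- **KAB**: a bounded representative of the class of `-q (K + B)` -/
def KAB : Prop := ForD fun _ _ _ _ _ _ _ d k N q _ _ _ _ _ _ a u _ _ _ e₀ b _ =>
  ∃ κ : Fin N → ℤ, (∀ j, u j = 0 → |κ j| ≤ (q * (d + k + 1) : ℕ)) ∧
    ∑ j, κ j • a j = -((q : ℤ) • e₀ + b)

/-- **ONE**: the special fibre of the degeneration is reduced -/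
def ONE : Prop := ForD fun K F _ _ _ _ _ d k N _ _ _ t _ _ s a u _ _ _ _ _ _ =>
  ForE F (d + k) fun E _ _ _ τ => ∀ (D : ℕ) (v : Fin N → ℕ) (W : Pl E),
    Sv (1 / (4 * (N + 1))) a u D v → Wp u (zz t s a) τ v W → ∀ φ : K, φ ≠ 0 →
      D * W.ord τ ∣ W.ord (algebraMap F E (algebraMap K F φ))

/-- `κ` represents `-δ`, `η` is small -/
structure Kp (q : ℕ) (ε η : ℝ) {k N : ℕ} (a : Fin N → Fin k → ℤ) (u : Fin N → ℕ) (δ : Fin k → ℤ)
    (C : ℕ) (κ : Fin N → ℤ) : Prop where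
  bd : ∀ j, u j = 0 → |κ j| ≤ C
  eq : ∑ j, κ j • a j = -δ
  h1 : η ≤ ε
  h2 : η ≤ 1 / (4 * (N + 1))
  h3 : η * (q + C) ≤ 1

/-- **TRG**: for a small vector all places are trivial on `K` -/
def TRG : Prop := ForD fun K F _ _ _ _ _ d k N q ε _ t _ _ s a u _ _ _ e₀ b _ =>
  ForE F (d + k) fun E _ _ _ τ => ∀ (η : ℝ) (C D : ℕ) (κ : Fin N → ℤ) (v : Fin N → ℕ) (W : Pl E),
    Kp q ε η a u ((q : ℤ) • e₀ + b) C κ → Sv η a u D v → Wp u (zz t s a) τ v W →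
    ∃ ξ : Fin k → ℝ, (∀ (φ : K) e, φ ≠ 0 →
      (W.ord (algebraMap F E (hm t φ e)) : ℝ) = W.ord τ * pa e ξ) ∧
      -pa ((q : ℤ) • e₀ + b) ξ ≤ (∑ j, κ j * v j : ℤ)

/-- **HMG**: the geometry in terms of weights -/
def HMG : Prop := ForD fun _ _ _ _ _ _ _ _ _ N q ε _ _ _ _ s a u _ _ _ e₀ b Q =>
  ∀ (η : ℝ) (C : ℕ) (κ : Fin N → ℤ), Kp q ε η a u ((q : ℤ) • e₀ + b) C κ →
    Hm η a u (fun j => Q.ord (s j)) ((q : ℤ) • e₀ + b) κ

/-- **KLF**: the ring of the sections is klt for the form without the boundary -/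
def KLF : Prop := ForD fun _ F _ _ _ _ _ _ _ _ q _ y t _ _ s a _ _ h₀ g e₀ b _ =>
  ∀ R : Pl F, (∀ x ∈ Rg s a t, x ∈ R.ring) →
    (0 : ℝ) ≤ q * lt y t R - R.ord (hm t (h₀ ^ q * g) ((q : ℤ) • e₀ + b)) ∧
      0 < lt y t R - R.ord (hm t h₀ e₀) ∧ (PD (Rg s a t) R → lt y t R - R.ord (hm t h₀ e₀) = 1)

/-- **SKO**: the theorem of Skoda for the Rees ring -/
def SKO : Prop := ForD fun _ F _ _ _ _ _ d k N _ _ _ t _ _ s a _ _ _ _ _ _ _ =>
  ForE F (d + k) fun E _ _ _ τ => ∀ (v : Fin N → ℕ) (x : E),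
    IsIntegral (Algebra.adjoin ℂ (insert τ (range (xs (zz t s a) τ v)))) x →
    τ ^ (∑ j, v j) * x ∈ Algebra.adjoin ℂ (insert τ (range (xs (zz t s a) τ v)))

end Vale.Agent.P283R.Hb
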