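import Vale.Agent.P283R.Hb.St
import Vale.Agent.P283R.Hz.Trv

/-!
# P283R, block HB, row TRG: for a small vector the places of the Rees ring are trivial on `K`
-/

open Set
open Vale.Agent.P297Z

noncomputable section

namespace Vale.Agent.P283R.Hb

open Vale.Agent.P287D Vale.Agent.P283M Vale.Agent.P283R.Cx Vale.Agent.P283R.Cy Vale.Agent.P283R.Hz

namespace Tg

variable {k n N : ℕ}

theorem sum_ind {M : Type} [AddCommGroup M] (J : Fin n → Fin N) (g : Fin N → M) :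
    ∑ j, (∑ i, if J i = j then (1 : ℤ) else 0) • g j = ∑ i, g (J i) := by
  simp only [Finset.sum_smul, ite_smul, one_smul, zero_smul]
  rw [Finset.sum_comm]
  exact Finset.sum_congr rfl fun i _ => by simp

/-- the comparison of two representatives of the class -/
theorem cmp {q C D : ℕ} {ε η : ℝ} {a : Fin N → Fin k → ℤ} {u v β : Fin N → ℕ} {δ : Fin k → ℤ}
    {κ : Fin N → ℤ} (hq : 0 < q) (P : Kp q ε η a u δ C κ) (S : Sv η a u D v) {J : Fin n → Fin N}
    (hJ : Function.Injective J) (hβ : dg a β = δ + (q : ℤ) • ∑ i, a (J i)) :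
    (∑ i, (v (J i) : ℝ) ≤ ∑ j, (v j : ℝ)) ∧
      q * ∑ i, (v (J i) : ℝ) - ∑ j, (v j : ℝ) * β j ≤ (∑ j, κ j * v j : ℤ) := by
  have k1 : ∑ i, (v (J i) : ℤ) ≤ ∑ j, (v j : ℤ) := by
    rw [← Finset.sum_image (f := fun j => (v j : ℤ)) hJ.injOn]
    exact Finset.sum_le_sum_of_subset_of_nonneg (Finset.subset_univ _) fun _ _ _ => by positivity
  obtain ⟨r, hr⟩ := S.dvd (fun j => q * (∑ i, if J i = j then 1 else 0) - β j - κ j) (by
    have : ∑ j, (β j : ℤ) • a j = dg a β := funext fun i => by simp [dg, Finset.sum_apply]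
    simp only [sub_smul, mul_smul, Finset.sum_sub_distrib, ← Finset.smul_sum]
    rw [sum_ind, this, hβ, P.eq]
    abel)
  have e : ∑ j, (v j : ℤ) * (q * (∑ i, if J i = j then 1 else 0) - β j - κ j) =
      q * ∑ i, (v (J i) : ℤ) - ∑ j, (v j : ℤ) * β j - ∑ j, κ j * v j := by
    rw [← sum_ind J fun j => (v j : ℤ), Finset.mul_sum, ← Finset.sum_sub_distrib,
      ← Finset.sum_sub_distrib]
    exact Finset.sum_congr rfl fun j _ => by rw [smul_eq_mul]; ring
  have k2 : -(C * ∑ j, (v j : ℤ)) ≤ ∑ j, κ j * v j := by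
    rw [Finset.mul_sum, ← Finset.sum_neg_distrib]
    refine Finset.sum_le_sum fun j _ => ?_
    by_cases h : u j = 0
    · rw [← neg_mul]
      exact mul_le_mul_of_nonneg_right (abs_le.1 (P.bd j h)).1 (by positivity)
    · have : v j = 0 := by have := S.pos j; omega
      simp [this]
  have k3 : (0 : ℤ) ≤ ∑ j, (v j : ℤ) * β j := by positivity
  have D0 : (0 : ℝ) < D := Nat.cast_pos.2 S.D0
  have k4 : ((q : ℤ) + C) * ∑ j, (v j : ℤ) < D := by
    have p : (0 : ℝ) < q + C := by positivity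
    have := mul_lt_mul_of_pos_left S.lt p
    have : ((q : ℝ) + C) * ∑ j, (v j : ℝ) < D := by nlinarith [P.h3]
    exact_mod_cast this
  have k5 : q * ∑ i, (v (J i) : ℤ) - ∑ j, (v j : ℤ) * β j ≤ ∑ j, κ j * v j := by
    have k6 := mul_le_mul_of_nonneg_left k1 (Nat.cast_nonneg (α := ℤ) q)
    have r0 : r ≤ 0 := by
      by_contra h
      have : (D : ℤ) * 1 ≤ D * r := mul_le_mul_of_nonneg_left (by omega) (Nat.cast_nonneg _)
      linarith
    have := mul_nonneg (Nat.cast_nonneg (α := ℤ) D) (neg_nonneg.2 r0)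
    linarith
  exact ⟨by exact_mod_cast k1, by exact_mod_cast k5⟩

end Tg

/-- **TRG** -/
theorem trg_of (dsg : DSG) (one : ONE) : TRG := by
  intro K F _ _ _ _ _ _ d k N q ε y t T D' s a u l h₀ g e₀ b Q X E _ _ _ _ τ x η C D κ v W P S w
  have t0 := X.ext.ind.ne_zero
  have τ0 : τ ≠ 0 := x.ind.ne_zero 0
  have h0 := mul_ne_zero (pow_ne_zero q X.can.1) X.g0
  obtain ⟨R, J, β, L, hJ, hβ, le⟩ := dsg K F d k N q ε y t T D' s a u l h₀ g e₀ b Q X E τ x v W
    S.pos w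
  obtain ⟨c1, c2⟩ := Tg.cmp X.q0 P S hJ hβ
  have w0 : (0 : ℝ) < W.ord τ := by exact_mod_cast w.pos
  have e0 : (0 : ℝ) < W.ord (algebraMap F E R.t) := by exact_mod_cast L.e_pos
  have q0 : (0 : ℝ) < q := Nat.cast_pos.2 X.q0
  have D0 : (0 : ℝ) < D := Nat.cast_pos.2 S.D0
  obtain ⟨tr, p⟩ | ⟨Q', l', p⟩ := dwn K F d k y t X.ext X.fr R
  · have o : ∀ (φ : K) e, φ ≠ 0 → (W.ord (algebraMap F E (hm t φ e)) : ℝ) = W.ord τ *
        pa e fun i => W.ord (algebraMap F E R.t) * (R.ord (t i) : ℝ) / W.ord τ := fun φ e φ0 => by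
      rw [L.ord, Int.cast_mul, Mp.ord_hor t0 tr φ0, pa, pa, Finset.mul_sum, Finset.mul_sum]
      exact Finset.sum_congr rfl fun i _ => by field_simp
    refine ⟨_, o, le_of_mul_le_mul_left ?_ w0⟩
    have := o _ ((q : ℤ) • e₀ + b) h0
    rw [L.ord, Int.cast_mul] at this
    nlinarith [mul_nonneg e0.le (mul_nonneg q0.le p), mul_le_mul_of_nonneg_left c2 w0.le]
  · exfalso
    have b1 := Md.hw_ver t0 X.cox.ne h0 X.hw l' (fun j => by
      have : algebraMap F E (zz t s a j) ∈ W.ring := by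
        rw [Tv.xs_mul (v := v) τ0]
        exact mul_mem (w.mem j) (pow_mem ((Pl.ord_nonneg_iff _ τ0).1 w.pos.le) _)
      exact Pl.ord_nonneg_of_mem _ ((L _).2 this)) p
    rw [le_sub_iff_add_le, ← le_sub_iff_add_le', div_le_iff₀ q0] at b1
    have ρ2 : (D : ℝ) * W.ord τ ≤ W.ord (algebraMap F E R.t) * R.ord (algebraMap K F Q'.t) := by
      have := one K F d k N q ε y t T D' s a u l h₀ g e₀ b Q X E τ x D v W
        ⟨S.D0, S.pos, S.dvd, S.lt.trans_le (mul_le_mul_of_nonneg_right P.h2 D0.le)⟩ w Q'.t Q'.t_ne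
      rw [L.ord] at this
      exact_mod_cast Int.le_of_dvd (mul_pos L.e_pos l'.e_pos) this
    have n0 : (0 : ℝ) ≤ ∑ j, (v j : ℝ) * β j := by positivity
    have k1 := mul_le_mul_of_nonneg_left b1 e0.le
    have k2 := mul_le_mul_of_nonneg_left ρ2 (mul_pos q0 X.ε0).le
    have k3 := mul_lt_mul_of_pos_left (c1.trans_lt (S.lt.trans_le
      (mul_le_mul_of_nonneg_right P.h1 D0.le))) (mul_pos w0 q0)
    nlinarith [mul_nonneg w0.le n0]

end Vale.Agent.P283R.Hb
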